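import Vale.Agent.P207.H442.FrC2
import Vale.Agent.P207.H747.Fr2
import Vale.Agent.P207.H469.KAlg
import Vale.Agent.P207.H469.KPr

/-!
# P207 / H469: the frame calculus of a rank one locally symmetric metric is `RankOne`
-/

open scoped Manifold ContDiff RealInnerProductSpace
open Bundle Set

noncomputable section

set_option maxSynthPendingDepth 3
set_option linter.unusedSectionVars false

namespace Vale.Agent.P207.H469

open Vale.Agent.P255 (RMetric)
open Vale.Agent.P207 Vale.Agent.P207.Q Vale.Agent.P207.Q.H545 Vale.Agent.P207.Q.H743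
open Vale.Agent.P207.H442 Vale.Agent.P207.H442.FrCalc Vale.Agent.P207.H747

/-! ### the algebra in the standard basis -/

section Alg

variable {n : ℕ}

/-- the standard basis -/
def eb (n : ℕ) : OrthonormalBasis (Fin n) ℝ (En n) := EuclideanSpace.basisFun (Fin n) ℝ

theorem eb_apply (i : Fin n) : eb n i = ee i := EuclideanSpace.basisFun_apply _ _ i

theorem CCT.co_eq {r : Fin n → Fin n → Fin n → Fin n → ℝ} (h : CCT r) (i j k l : Fin n) :
    co (eb n) h.toACT i j k l = r i j k l := by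
  unfold co
  rw [eb_apply, eb_apply, eb_apply, eb_apply, inner_ee]
  exact Rmap_ee r i j k l

variable {V : Type*} [NormedAddCommGroup V] [InnerProductSpace ℝ V] [FiniteDimensional ℝ V]
  {S : ACT V} {b : ℝ} {v : V} {ι : Type*} [Fintype ι] [DecidableEq ι]

/-- the dimension of the leaf is one plus the multiplicity of `b²` -/
theorem dimL_finrank (e : OrthonormalBasis ι ℝ V) (h : S.Nrm b) (hv : ‖v‖ = 1) :
    dimL e S b v = (Module.finrank ℝ (Module.End.eigenspace (S.K v) (b ^ 2)) : ℝ) + 1 := by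
  have hv1 := ACT.inner_self_one hv
  set E := Module.End.eigenspace (S.K v) (b ^ 2) with hE
  let f := stdOrthonormalBasis ℝ E
  have hfE : ∀ j, S.K v (f j : V) = (b ^ 2) • (f j : V) := fun j =>
    Module.End.mem_eigenspace_iff.1 (f j).2
  have hf1 : ∀ j, ‖(f j : V)‖ = 1 := fun j => by
    have h1 := f.orthonormal.1 j
    rw [Submodule.coe_norm] at h1
    exact h1
  have hfv : ∀ j, ⟪(f j : V), v⟫ = 0 := fun j =>
    ACT.orth_of_eig (pow_ne_zero 2 h.pos.ne') (hfE j)
  have hfix : ∀ j, LP S b v (f j : V) = f j := fun j => LP_of_eig h.pos hv1 (hfE j)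
  have hsum : ∀ z, LP S b v z =
      ∑ j, ⟪(Fin.cons v (fun j => (f j : V)) : Fin (Module.finrank ℝ E + 1) → V) j, z⟫ •
        (Fin.cons v (fun j => (f j : V)) : Fin (Module.finrank ℝ E + 1) → V) j := by
    intro z
    rw [Fin.sum_univ_succ]
    simp only [Fin.cons_zero, Fin.cons_succ]
    rw [LP_eq h hv z]
    congr 1
    have hz : ACT.pr2 S b v z ∈ E := Module.End.mem_eigenspace_iff.2 (h.K_pr2 hv z)
    have h1 := f.sum_repr' ⟨ACT.pr2 S b v z, hz⟩
    have h2 : ((∑ j, ⟪f j, (⟨ACT.pr2 S b v z, hz⟩ : E)⟫ • f j : E) : V) = ACT.pr2 S b v z :=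
      congrArg Subtype.val h1
    rw [← h2, AddSubmonoidClass.coe_finsetSum]
    refine Finset.sum_congr rfl fun j _ => ?_
    rw [Submodule.coe_smul, Submodule.coe_inner]
    congr 1
    change ⟪(f j : V), ACT.pr2 S b v z⟫ = ⟪(f j : V), z⟫
    have h3 : ⟪(f j : V), z⟫ = ⟪(f j : V), LP S b v z⟫ := by
      rw [← LP_symm, hfix]
    rw [h3, LP_eq h hv z, inner_add_right, real_inner_smul_right, hfv, mul_zero, zero_add]
  have h2 := dimL_family e hv (f := Fin.cons v (fun j => (f j : V))) (fun j => by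
    refine Fin.cases ?_ (fun j => ?_) j
    · rw [Fin.cons_zero, hv]
    · rw [Fin.cons_succ, hf1]) hsum
  rw [h2]
  push_cast
  ring

end Alg

variable {n : ℕ} {M : Type} [TopologicalSpace M] [ChartedSpace (EV n) M]
  [IsManifold 𝓘(ℝ, EV n) ∞ M] {g : RMetric (EV n) M}
variable [NeZero n] [CompactSpace M] [T2Space M] [Nonempty (Fr g)]

/-- the values of a family at a frame -/
def evF (p : Fr g) (k : F2 n (SmFr g)) : Fin n → Fin n → ℝ := fun i j => ev p (k i j)

theorem evF_Ro {p : Fr g} {S : ACT (En n)}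
    (hS : ∀ i j k l, co (eb n) S i j k l = Rf g p i j k l) (k : F2 n (SmFr g)) :
    evF p (Ro (frCalc g) k) = ro (eb n) S (evF p k) := by
  funext i j
  unfold evF ro
  rw [Ro_apply, ev_sum]
  refine Finset.sum_congr rfl fun a _ => ?_
  rw [ev_sum]
  refine Finset.sum_congr rfl fun c _ => ?_
  rw [ev_mul, hS]
  rfl

theorem evF_Tm {p : Fr g} {S : ACT (En n)} (b : ℝ)
    (hS : ∀ i j k l, co (eb n) S i j k l = Rf g p i j k l) (k : F2 n (SmFr g)) :
    evF p (Tm (frCalc g) b k) = tm (eb n) S b (evF p k) := by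
  funext i j
  have h1 := congrFun (congrFun (evF_Ro hS k) i) j
  change ev p (Tm (frCalc g) b k i j) = _
  rw [Tm_apply]
  simp only [Pi.smul_apply, Pi.add_apply, Pi.sub_apply, ev_smul, ev_add, ev_sub]
  unfold tm
  change ev p (Ro (frCalc g) k i j) = _ at h1
  rw [h1, dl_apply, tr2_apply]
  congr 3
  split_ifs
  · rw [ev_sum]; rfl
  · rw [ev_zero]

/-- **the frame calculus is of rank one** -/
theorem rankOne_of_act {b c₀ : ℝ}
    (hE : ∀ i j, (frCalc g).Ric i j = if i = j then -(c₀ • (1 : SmFr g)) else 0)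
    (S : Fr g → ACT (En n)) (hco : ∀ p i j k l, co (eb n) (S p) i j k l = Rf g p i j k l)
    (hb : ∀ p : Fr g, (S p).Nrm b) :
    RankOne (frCalc g) b c₀ := by
  have hein : ∀ (p : Fr g) (i j : Fin n), ∑ a, co (eb n) (S p) i a j a =
      if i = j then c₀ else 0 := by
    intro p i j
    have h1 := congrArg (ev p) (sum_R_ein hE i j)
    rw [ev_sum] at h1
    simp only [hco]
    refine Eq.trans h1 ?_
    split_ifs
    · rw [ev_smul, ev_one, mul_one]
    · rw [ev_zero]
  have hN : ∀ p : Fr g, ∃ m : ℕ, 2 ≤ m ∧ m ≤ n ∧ NN n b c₀ = m := by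
    intro p
    have hv : ‖(ee 0 : En n)‖ = 1 := by
      rw [← eb_apply]
      exact (eb n).norm_eq_one 0
    obtain ⟨m, h1, h2, h3⟩ := exists_dimL (eb n) (hb p) hv
    refine ⟨m, h1, by simpa using h2, ?_⟩
    rw [← h3, dimL_einstein (eb n) (hein p) hv]
    simp [NN]
  obtain ⟨p₀⟩ := ‹Nonempty (Fr g)›
  obtain ⟨m, hm, -, hNm⟩ := hN p₀
  refine ⟨(hb p₀).pos, ?_, hE, ?_⟩
  · rw [hNm]
    exact_mod_cast (by omega : 0 < m)
  · intro k hk
    funext i j
    apply ext_ev
    intro p
    have h1 := congrFun (congrFun (evF_Tm b (hco p) (Tm (frCalc g) b k)) i) j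
    have h2 := congrFun (congrFun (evF_Tm b (hco p) k) i) j
    have h3 : ∀ i j, evF p k i j = evF p k j i := fun i j => congrArg (ev p) (hk i j)
    have h4 := tm_tm (eb n) (hb p) (hein p) h3 i j
    change ev p (Tm (frCalc g) b (Tm (frCalc g) b k) i j) = _ at h1
    change ev p (Tm (frCalc g) b k i j) = _ at h2
    rw [h1, evF_Tm b (hco p) k, h4]
    change _ = ev p (NN n b c₀ • Tm (frCalc g) b k i j)
    rw [ev_smul, h2]
    simp [NN]

theorem co_act (hL : LocSymmetric g) (hN : NegCurvature g) (f : Fr g) (i j k l : Fin n) :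
    co (eb n) (act hL hN f) i j k l = Rf g f i j k l := by
  unfold co
  rw [eb_apply, eb_apply, eb_apply, eb_apply, inner_ee]
  exact act_R hL hN f i j k l

/-- **a locally symmetric metric of negative curvature on a closed connected manifold is of rank
one**: the constants `b`, `c₀` and the multiplicity `d` of the largest eigenvalue -/
theorem exists_rankOne [ConnectedSpace M] (hn : 2 ≤ n) (hL : LocSymmetric g)
    (hN : NegCurvature g) : ∃ (b c₀ : ℝ) (d : ℕ), 0 < b ∧ 0 < c₀ ∧ RankOne (frCalc g) b c₀ ∧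
      NN n b c₀ = d + 1 ∧ ∀ f : Fr g, (act hL hN f).Nrm b ∧ ∀ v : En n, ‖v‖ = 1 →
        Module.finrank ℝ (Module.End.eigenspace ((act hL hN f).K v) (b ^ 2)) = d := by
  obtain ⟨b, d, hb, h⟩ := exists_rank_one hn hL hN
  obtain ⟨c₀, hc, hE⟩ := exists_einstein hn hN hL
  have hR : RankOne (frCalc g) b c₀ :=
    rankOne_of_act hE (fun f => act hL hN f) (co_act hL hN) (fun f => (h f).1)
  refine ⟨b, c₀, d, hb, hc, hR, ?_, h⟩
  obtain ⟨p⟩ := ‹Nonempty (Fr g)›
  have hv : ‖(ee 0 : En n)‖ = 1 := by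
    rw [← eb_apply]
    exact (eb n).norm_eq_one 0
  have hein : ∀ (i j : Fin n), ∑ a, co (eb n) (act hL hN p) i a j a =
      if i = j then c₀ else 0 := by
    intro i j
    have h1 := congrArg (ev p) (sum_R_ein hE i j)
    rw [ev_sum] at h1
    simp only [co_act]
    refine Eq.trans h1 ?_
    split_ifs
    · rw [ev_smul, ev_one, mul_one]
    · rw [ev_zero]
  have h1 := dimL_finrank (eb n) (h p).1 hv
  rw [dimL_einstein (eb n) hein hv, (h p).2 _ hv] at h1
  rw [← h1]
  simp [NN]

end Vale.Agent.P207.H469
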